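import Vale.Agent.P198.E.D

/-! # P198 block E: calculus in a Dirichlet structure. The theorems are in E/A, E/B, E/C, E/D. -/
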